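import Mathlib
import Vale.Agent.P243.Geom

/-! P243: Bang's half-area inequality, in the directionwise form, for all coverings of a convex
body by cylinders with at most two axis directions. -/

namespace Vale.Agent.Results.P243.TwoDirections

open MeasureTheory Set

/-- Euclidean three-space. -/
abbrev E3 : Type := EuclideanSpace ℝ (Fin 3)

/-- For an orthonormal pair `e`, the coordinates of the orthogonal projection of `x` onto the plane
spanned by `e 0`, `e 1`. -/
noncomputable def coords (e : Fin 2 → E3) (x : E3) : ℝ × ℝ := (inner ℝ (e 0) x, inner ℝ (e 1) x)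

/-- The cylinder with base `B` in the plane of `e` (in the coordinates of `e`) and axis orthogonal
to that plane. -/
def cylinder (e : Fin 2 → E3) (B : Set (ℝ × ℝ)) : Set E3 := {x | coords e x ∈ B}

/-- Planar area (Lebesgue outer measure, so no measurability is needed below). -/
noncomputable def area (B : Set (ℝ × ℝ)) : ℝ := (volume B).toReal

/-- The orthogonal projection of `K` onto the plane of `e`, in the coordinates of `e`. -/
def shadow (e : Fin 2 → E3) (K : Set E3) : Set (ℝ × ℝ) := coords e '' K

/-- The smallest area of an orthogonal projection of `K` onto a plane. -/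
noncomputable def minArea (K : Set E3) : ℝ :=
  ⨅ g : {g : Fin 2 → E3 // Orthonormal ℝ g}, area (shadow g.1 K)

/-- the same with Borel bases -/
theorem borel (K : Set E3) (hK : Convex ℝ K) (hKc : IsCompact K) (hKi : (interior K).Nonempty)
    (e f : Fin 2 → E3) (he : Orthonormal ℝ e) (hf : Orthonormal ℝ f)
    (hef : Submodule.span ℝ (range e) ≠ Submodule.span ℝ (range f))
    (m n : ℕ) (B : Fin m → Set (ℝ × ℝ)) (C : Fin n → Set (ℝ × ℝ))
    (hB : ∀ i, MeasurableSet (B i) ∧ volume (B i) ≠ ⊤)
    (hC : ∀ j, MeasurableSet (C j) ∧ volume (C j) ≠ ⊤)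
    (hcov : K ⊆ (⋃ i, cylinder e (B i)) ∪ ⋃ j, cylinder f (C j)) :
    1 / 2 ≤ ∑ i, area (B i) / area (shadow e K) + ∑ j, area (C j) / area (shadow f K) ∧
    1 / 2 * minArea K ≤ ∑ i, area (B i) + ∑ j, area (C j) := by
  have hBf : volume (⋃ i, B i) ≠ ⊤ := by
    refine (lt_of_le_of_lt (measure_iUnion_le _) ?_).ne
    rw [tsum_fintype]
    exact ENNReal.sum_lt_top.2 fun i _ => lt_top_iff_ne_top.2 (hB i).2
  have hCf : volume (⋃ j, C j) ≠ ⊤ := by
    refine (lt_of_le_of_lt (measure_iUnion_le _) ?_).ne
    rw [tsum_fintype]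
    exact ENNReal.sum_lt_top.2 fun i _ => lt_top_iff_ne_top.2 (hC i).2
  have hBle : (volume (⋃ i, B i)).toReal ≤ ∑ i, area (B i) := by
    unfold area
    rw [← ENNReal.toReal_sum fun i _ => (hB i).2]
    refine ENNReal.toReal_mono ?_ ?_
    · exact (ENNReal.sum_lt_top.2 fun i _ => lt_top_iff_ne_top.2 (hB i).2).ne
    · rw [← tsum_fintype (L := .unconditional _)]
      exact measure_iUnion_le _
  have hCle : (volume (⋃ i, C i)).toReal ≤ ∑ i, area (C i) := by
    unfold area
    rw [← ENNReal.toReal_sum fun i _ => (hC i).2]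
    refine ENNReal.toReal_mono ?_ ?_
    · exact (ENNReal.sum_lt_top.2 fun i _ => lt_top_iff_ne_top.2 (hC i).2).ne
    · rw [← tsum_fintype (L := .unconditional _)]
      exact measure_iUnion_le _
  have h := _root_.P243.two K hK hKc hKi e f he hf hef (⋃ i, B i) (⋃ j, C j)
    (MeasurableSet.iUnion fun i => (hB i).1) (MeasurableSet.iUnion fun j => (hC j).1) hBf hCf
    (by
      intro x hx
      rcases hcov hx with h | h
      · left
        obtain ⟨i, hi⟩ := mem_iUnion.1 h
        exact mem_iUnion.2 ⟨i, hi⟩
      · right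
        obtain ⟨i, hi⟩ := mem_iUnion.1 h
        exact mem_iUnion.2 ⟨i, hi⟩)
  have h1 : 1 / 2 ≤ ∑ i, area (B i) / area (shadow e K) + ∑ j, area (C j) / area (shadow f K) := by
    refine h.trans ?_
    rw [← Finset.sum_div, ← Finset.sum_div]
    exact add_le_add (div_le_div_of_nonneg_right hBle ENNReal.toReal_nonneg)
      (div_le_div_of_nonneg_right hCle ENNReal.toReal_nonneg)
  refine ⟨h1, ?_⟩
  have hb : BddBelow (range fun g : {g : Fin 2 → E3 // Orthonormal ℝ g} => area (shadow g.1 K)) :=
    ⟨0, by rintro _ ⟨g, rfl⟩; exact ENNReal.toReal_nonneg⟩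
  have hme : minArea K ≤ area (shadow e K) := ciInf_le hb ⟨e, he⟩
  have hmf : minArea K ≤ area (shadow f K) := ciInf_le hb ⟨f, hf⟩
  have hm0 : 0 ≤ minArea K := by
    have : Nonempty {g : Fin 2 → E3 // Orthonormal ℝ g} := ⟨⟨e, he⟩⟩
    exact le_ciInf fun g => ENNReal.toReal_nonneg
  rcases hm0.eq_or_lt with h0 | h0
  · rw [← h0, mul_zero]
    exact add_nonneg (Finset.sum_nonneg fun i _ => ENNReal.toReal_nonneg)
      (Finset.sum_nonneg fun i _ => ENNReal.toReal_nonneg)
  · have he0 : 0 < area (shadow e K) := lt_of_lt_of_le h0 hme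
    have hf0 : 0 < area (shadow f K) := lt_of_lt_of_le h0 hmf
    rw [← Finset.sum_div, ← Finset.sum_div] at h1
    have hSB : 0 ≤ ∑ i, area (B i) := Finset.sum_nonneg fun i _ => ENNReal.toReal_nonneg
    have hSC : 0 ≤ ∑ i, area (C i) := Finset.sum_nonneg fun i _ => ENNReal.toReal_nonneg
    have k1 : (∑ i, area (B i)) / area (shadow e K) * minArea K ≤ ∑ i, area (B i) := by
      calc (∑ i, area (B i)) / area (shadow e K) * minArea K
          ≤ (∑ i, area (B i)) / area (shadow e K) * area (shadow e K) :=
            mul_le_mul_of_nonneg_left hme (div_nonneg hSB he0.le)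
        _ = ∑ i, area (B i) := div_mul_cancel₀ _ he0.ne'
    have k2 : (∑ i, area (C i)) / area (shadow f K) * minArea K ≤ ∑ i, area (C i) := by
      calc (∑ i, area (C i)) / area (shadow f K) * minArea K
          ≤ (∑ i, area (C i)) / area (shadow f K) * area (shadow f K) :=
            mul_le_mul_of_nonneg_left hmf (div_nonneg hSC hf0.le)
        _ = ∑ i, area (C i) := div_mul_cancel₀ _ hf0.ne'
    have k3 := mul_le_mul_of_nonneg_right h1 hm0
    rw [add_mul] at k3
    linarith

/-- If a convex body `K` in `ℝ³` is covered by finitely many cylinders, each with axis orthogonal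
to one of two given distinct planes, then the base areas divided by the areas of the projections
of `K` in the same directions sum to at least `1/2`; in particular the sum of the base areas is at
least half of the minimal projection area of `K`. -/
theorem result (K : Set E3) (hK : Convex ℝ K) (hKc : IsCompact K) (hKi : (interior K).Nonempty)
    (e f : Fin 2 → E3) (he : Orthonormal ℝ e) (hf : Orthonormal ℝ f)
    (hef : Submodule.span ℝ (range e) ≠ Submodule.span ℝ (range f))
    (m n : ℕ) (B : Fin m → Set (ℝ × ℝ)) (C : Fin n → Set (ℝ × ℝ))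
    (hB : ∀ i, volume (B i) ≠ ⊤) (hC : ∀ j, volume (C j) ≠ ⊤)
    (hcov : K ⊆ (⋃ i, cylinder e (B i)) ∪ ⋃ j, cylinder f (C j)) :
    1 / 2 ≤ ∑ i, area (B i) / area (shadow e K) + ∑ j, area (C j) / area (shadow f K) ∧
    1 / 2 * minArea K ≤ ∑ i, area (B i) + ∑ j, area (C j) := by
  have hm : ∀ S : Set (ℝ × ℝ), area (toMeasurable volume S) = area S := fun S => by
    unfold area
    rw [measure_toMeasurable]
  have h := borel K hK hKc hKi e f he hf hef m n (fun i => toMeasurable volume (B i))
    (fun j => toMeasurable volume (C j))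
    (fun i => ⟨measurableSet_toMeasurable _ _, by rw [measure_toMeasurable]; exact hB i⟩)
    (fun j => ⟨measurableSet_toMeasurable _ _, by rw [measure_toMeasurable]; exact hC j⟩)
    (hcov.trans (union_subset_union
      (iUnion_mono fun i => fun x hx => subset_toMeasurable volume (B i) hx)
      (iUnion_mono fun j => fun x hx => subset_toMeasurable volume (C j) hx)))
  simpa only [hm] using h

end Vale.Agent.Results.P243.TwoDirections
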